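import Vale.Agent.Lib.MathlibUsed

/-!
# Averages and probabilities over finite types
-/

namespace Vale.Agent.P325.K2

open Finset

/-- The average of a function on a finite type. -/
noncomputable def Ex {α : Type} [Fintype α] (f : α → ℝ) : ℝ := (∑ x, f x) / Fintype.card α

open Classical in
/-- The probability of an event under the uniform distribution. -/
noncomputable def Pr {α : Type} [Fintype α] (p : α → Prop) : ℝ := Ex fun x => if p x then 1 else 0

section

variable {α β γ : Type} [Fintype α] [Fintype β] [Fintype γ]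

theorem Ex_add (f g : α → ℝ) : Ex (fun x => f x + g x) = Ex f + Ex g := by
  simp only [Ex, sum_add_distrib, add_div]

theorem Ex_sub (f g : α → ℝ) : Ex (fun x => f x - g x) = Ex f - Ex g := by
  simp only [Ex, sum_sub_distrib, sub_div]

theorem Ex_sum {κ : Type} (s : Finset κ) (f : κ → α → ℝ) :
    Ex (fun x => ∑ k ∈ s, f k x) = ∑ k ∈ s, Ex (f k) := by
  simp only [Ex, ← sum_div]
  rw [sum_comm]

theorem Ex_const_mul (c : ℝ) (f : α → ℝ) : Ex (fun x => c * f x) = c * Ex f := by
  simp only [Ex, ← mul_sum, mul_div_assoc]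

theorem Ex_mul_const (c : ℝ) (f : α → ℝ) : Ex (fun x => f x * c) = Ex f * c := by
  simp only [Ex, ← sum_mul, div_mul_eq_mul_div]

theorem Ex_neg (f : α → ℝ) : Ex (fun x => - f x) = - Ex f := by
  simp only [Ex, sum_neg_distrib, neg_div]

theorem Ex_const [Nonempty α] (c : ℝ) : Ex (fun _ : α => c) = c := by
  have : (Fintype.card α : ℝ) ≠ 0 := by
    exact_mod_cast Fintype.card_ne_zero
  simp only [Ex, sum_const, card_univ, nsmul_eq_mul]
  field_simp

theorem Ex_mono {f g : α → ℝ} (h : ∀ x, f x ≤ g x) : Ex f ≤ Ex g :=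
  div_le_div_of_nonneg_right (sum_le_sum fun x _ => h x) (Nat.cast_nonneg _)

theorem Ex_congr {f g : α → ℝ} (h : ∀ x, f x = g x) : Ex f = Ex g := by
  rw [funext h]

theorem Ex_nonneg {f : α → ℝ} (h : ∀ x, 0 ≤ f x) : 0 ≤ Ex f :=
  div_nonneg (sum_nonneg fun x _ => h x) (Nat.cast_nonneg _)

theorem Ex_prod (f : α × β → ℝ) : Ex f = Ex fun x => Ex fun y => f (x, y) := by
  simp only [Ex, Fintype.sum_prod_type, Fintype.card_prod, ← sum_div]
  push_cast
  rw [div_div, mul_comm]

theorem Ex_comm (f : α → β → ℝ) : (Ex fun x => Ex fun y => f x y) = Ex fun y => Ex fun x => f x y := by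
  simp only [Ex, ← sum_div]
  rw [sum_comm, div_div, div_div, mul_comm]

theorem Ex_equiv (e : α ≃ β) (f : β → ℝ) : (Ex fun x => f (e x)) = Ex f := by
  simp only [Ex, Fintype.card_congr e]
  rw [Equiv.sum_comp e f]

theorem Ex_abs_le (f : α → ℝ) : |Ex f| ≤ Ex fun x => |f x| := by
  rw [Ex, Ex, abs_div, Nat.abs_cast]
  exact div_le_div_of_nonneg_right (abs_sum_le_sum_abs _ _) (Nat.cast_nonneg _)

/-- An element where the function is at least its average. -/
theorem exists_ge_Ex [Nonempty α] (f : α → ℝ) : ∃ x, Ex f ≤ f x := by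
  by_contra h
  push Not at h
  have h1 : ∑ x, f x < ∑ _x : α, Ex f := sum_lt_sum_of_nonempty univ_nonempty fun x _ => h x
  have h2 : (Fintype.card α : ℝ) ≠ 0 := by exact_mod_cast Fintype.card_ne_zero
  simp only [Ex, sum_const, card_univ, nsmul_eq_mul] at h1
  field_simp at h1
  exact lt_irrefl _ h1

/-- Averages over the values of the coordinates: an injection of the index sets. -/
theorem Ex_comp_inj {I J : Type} [Fintype I] [Fintype J] [DecidableEq I] [DecidableEq J]
    (ι : J → I) (hι : Function.Injective ι) (f : (J → α) → ℝ) [Nonempty α] :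
    (Ex fun y : I → α => f fun j => y (ι j)) = Ex f := by
  classical
  -- split the coordinates
  let e1 : I ≃ J ⊕ {i // i ∉ Set.range ι} :=
    (Equiv.sumCompl (fun i => i ∈ Set.range ι)).symm.trans
      (Equiv.sumCongr (Equiv.ofInjective ι hι).symm (Equiv.refl _))
  have he1 : ∀ j, e1 (ι j) = Sum.inl j := by
    intro j
    simp only [e1, Equiv.trans_apply]
    rw [Equiv.sumCompl_symm_apply_of_pos (p := fun i => i ∈ Set.range ι) ⟨j, rfl⟩]
    simp
  let e : (I → α) ≃ (J → α) × ({i // i ∉ Set.range ι} → α) :=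
    (Equiv.arrowCongr e1 (Equiv.refl α)).trans (Equiv.sumArrowEquivProdArrow _ _ _)
  have he : ∀ y : I → α, (e y).1 = fun j => y (ι j) := by
    intro y
    funext j
    simp only [e, Equiv.trans_apply, Equiv.sumArrowEquivProdArrow, Equiv.coe_fn_mk,
      Equiv.arrowCongr_apply, Function.comp, Equiv.refl_apply]
    rw [← he1 j, Equiv.symm_apply_apply]
  have h1 := Ex_equiv e fun p => f p.1
  simp only [he] at h1
  rw [h1, Ex_prod]
  simp only [Ex_const]

theorem Pr_nonneg (p : α → Prop) : 0 ≤ Pr p :=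
  Ex_nonneg fun x => by split_ifs <;> norm_num

theorem Pr_mono {p q : α → Prop} (h : ∀ x, p x → q x) : Pr p ≤ Pr q :=
  Ex_mono fun x => by
    by_cases h1 : p x
    · simp [h1, h x h1]
    · rw [if_neg h1]; split_ifs <;> norm_num

theorem Pr_le_one (p : α → Prop) : Pr p ≤ 1 := by
  classical
  rcases isEmpty_or_nonempty α with h | h
  · simp [Pr, Ex]
  · calc Pr p ≤ Ex (fun _ : α => (1 : ℝ)) := Ex_mono fun x => by split_ifs <;> norm_num
      _ = 1 := Ex_const 1

open Classical in
theorem Pr_eq_card (p : α → Prop) : Pr p = (#{x | p x} : ℝ) / Fintype.card α := by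
  rw [Pr, Ex, ← Finset.sum_boole]

theorem Pr_or_le (p q : α → Prop) : Pr (fun x => p x ∨ q x) ≤ Pr p + Pr q := by
  classical
  unfold Pr
  rw [← Ex_add]
  refine Ex_mono fun x => ?_
  by_cases h1 : p x <;> by_cases h2 : q x <;> simp [h1, h2]

theorem Pr_exists_le {κ : Type} [Fintype κ] (p : κ → α → Prop) :
    Pr (fun x => ∃ k, p k x) ≤ ∑ k, Pr (p k) := by
  classical
  unfold Pr
  rw [← Ex_sum]
  refine Ex_mono fun x => ?_
  split_ifs with h
  · obtain ⟨k, hk⟩ := h
    calc (1 : ℝ) = if p k x then 1 else 0 := by rw [if_pos hk]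
      _ ≤ _ := single_le_sum (f := fun k => if p k x then (1 : ℝ) else 0)
        (fun _ _ => by split_ifs <;> norm_num) (mem_univ k)
  · exact sum_nonneg fun _ _ => by split_ifs <;> norm_num

theorem Pr_congr {p q : α → Prop} (h : ∀ x, p x ↔ q x) : Pr p = Pr q := by
  have : p = q := funext fun x => propext (h x)
  rw [this]

theorem Pr_equiv (e : α ≃ β) (p : β → Prop) : (Pr fun x => p (e x)) = Pr p := by
  classical
  exact Ex_equiv e fun x => if p x then (1 : ℝ) else 0

theorem Pr_prod (p : α × β → Prop) : Pr p = Ex fun x => Pr fun y => p (x, y) := by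
  classical
  exact Ex_prod _

/-- Markov's inequality. -/
theorem Pr_le_of_Ex {f : α → ℝ} (hf : ∀ x, 0 ≤ f x) {t : ℝ} (ht : 0 < t) :
    Pr (fun x => t < f x) ≤ Ex f / t := by
  classical
  rw [le_div_iff₀ ht, mul_comm, Pr, ← Ex_const_mul]
  refine Ex_mono fun x => ?_
  split_ifs with h
  · rw [mul_one]; exact h.le
  · rw [mul_zero]; exact hf x

theorem Pr_not (p : α → Prop) [Nonempty α] : Pr (fun x => ¬ p x) = 1 - Pr p := by
  classical
  rw [eq_sub_iff_add_eq]
  unfold Pr
  rw [← Ex_add]
  conv_rhs => rw [← Ex_const (α := α) 1]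
  refine Ex_congr fun x => ?_
  by_cases h : p x
  · rw [if_neg (not_not.2 h), if_pos h, zero_add]
  · rw [if_pos h, if_neg h, add_zero]

end

end Vale.Agent.P325.K2
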