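import Vale.Agent.P325.H111.K2.Avg

/-!
# The discrete cube: characters, coefficients, influences of sets of coordinates, energy
-/

namespace Vale.Agent.P325.K2

open Finset

section

variable {ι : Type} [Fintype ι] [DecidableEq ι]

/-- The sign of a bit. -/
def sg (b : Bool) : ℝ := if b then 1 else -1

/-- The character of a set. -/
def chi (S : Finset ι) (x : ι → Bool) : ℝ := ∏ i ∈ S, sg (x i)

/-- The Fourier coefficient. -/
noncomputable def fc (f : (ι → Bool) → ℝ) (S : Finset ι) : ℝ := Ex fun x => f x * chi S x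

/-- The joint influence of the set `A` of coordinates. -/
noncomputable def Inf (f : (ι → Bool) → ℝ) (A : Finset ι) : ℝ :=
  ∑ S : Finset ι, if Disjoint S A then 0 else fc f S ^ 2

/-- The smoothed joint influence of the set `A` of coordinates. -/
noncomputable def sInf (f : (ι → Bool) → ℝ) (A : Finset ι) : ℝ :=
  ∑ S : Finset ι, if Disjoint S A then 0 else (1 / 2) ^ #S * fc f S ^ 2

/-- Change of a bit. -/
def flp (x : ι → Bool) (i : ι) : ι → Bool := Function.update x i (!x i)

open Classical in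
/-- The pivotal coordinates. -/
noncomputable def piv (f : (ι → Bool) → ℝ) (x : ι → Bool) : Finset ι := {i | f (flp x i) ≠ f x}

open Classical in
/-- The energy of a function with respect to a partition of the coordinates into groups. -/
noncomputable def energy {G : Type} [Fintype G] (grp : ι → G) (f : (ι → Bool) → ℝ) : ℝ :=
  Ex fun x => ∑ g, Real.sqrt (#{i ∈ piv f x | grp i = g})

/-- The function has the values `1` and `-1`. -/
def IsSign (f : (ι → Bool) → ℝ) : Prop := ∀ x, f x = 1 ∨ f x = -1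

end

/-! ### Statements of the packages about the cube -/

open Classical in
/-- Package F1: the structure theorem. -/
def StructThm : Prop :=
  ∀ E ε : ℝ, 0 < ε → ∃ τ : ℝ, 0 < τ ∧
    ∀ (ι G : Type) [Fintype ι] [DecidableEq ι] [Fintype G] [DecidableEq G] (grp : ι → G)
      (f : (ι → Bool) → ℝ), IsSign f → energy grp f ≤ E →
      ∀ H : Finset G, (∀ g ∈ H, sInf f {i | grp i = g} < τ) → Inf f {i | grp i ∈ H} ≤ ε

/-- Package F2: the smoothed influence is Lipschitz. -/
def LipThm : Prop :=
  ∀ (ι : Type) [Fintype ι] [DecidableEq ι] (f f' : (ι → Bool) → ℝ), IsSign f → IsSign f' →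
    ∀ A : Finset ι, |sInf f A - sInf f' A| ≤ 8 * Pr fun x => f x ≠ f' x

/-- Package F3: the sum of the smoothed influences of disjoint sets. -/
def SumThm : Prop :=
  ∀ (ι Θ : Type) [Fintype ι] [DecidableEq ι] [Fintype Θ] [DecidableEq Θ] (f : (ι → Bool) → ℝ),
    IsSign f → ∀ grp : ι → Θ, ∑ θ, sInf f {i | grp i = θ} ≤ 1

/-- Package F4: irrelevant coordinates. -/
def IrrThm : Prop :=
  ∀ (ι : Type) [Fintype ι] [DecidableEq ι] (f : (ι → Bool) → ℝ) (W : Finset ι),
    (∀ x x' : ι → Bool, (∀ i ∈ W, x i = x' i) → f x = f x') →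
    ∀ A A' : Finset ι, A ∩ W = A' ∩ W → sInf f A = sInf f A' ∧ Inf f A = Inf f A'

/-- Package F5: odd functions. -/
def OddThm : Prop :=
  ∀ (ι : Type) [Fintype ι] [DecidableEq ι] (f : (ι → Bool) → ℝ), IsSign f →
    (∀ x, f (fun i => !x i) = - f x) → Inf f univ = 1

/-- Package F6: monotonicity. -/
def MonoThm : Prop :=
  ∀ (ι : Type) [Fintype ι] [DecidableEq ι] (f : (ι → Bool) → ℝ) (A B : Finset ι), A ⊆ B →
    sInf f A ≤ sInf f B ∧ sInf f A ≤ Inf f A ∧ 0 ≤ sInf f A

end Vale.Agent.P325.K2
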