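import Vale.Agent.P325.H111.K2.Cube
import Vale.Agent.P342.Defs

/-!
# Sums, tables, windows, questions
-/

namespace Vale.Agent.P325.K2

open Finset Vale.Agent.Lib.PCP Vale.Agent.P342

/-! ### Sums of weighted walks -/

/-- The sign of a bit, an integer. -/
def sgz (b : Bool) : ℤ := if b then 1 else -1

/-- The triangle wave of period `4 L` and height `L`. -/
def tw (L : ℕ) (v : ℤ) : ℤ := L - |(v + L) % (4 * L) - 2 * L|

/-- The value of a string of `L ^ 2` bits. -/
def xv (L : ℕ) (y : Fin (L * L) → Bool) : ℤ := tw L (∑ i, sgz (y i))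

section

variable {n L : ℕ} {K V : Type}

/-- The bits: a string of `L ^ 2` bits for each slot and each key. -/
abbrev Bt (n L : ℕ) (K : Type) : Type := Fin n × K × Fin (L * L)

instance bitsFintype {n L : ℕ} {K : Type} [Fintype K] [DecidableEq K] :
    Fintype (Bt n L K → Bool) := inferInstance

/-- The weighted sum of the values at the address `κ`. -/
def Ssum (a : Fin n → Fin L) (y : Bt n L K → Bool) (κ : Fin n → K) : ℤ :=
  ∑ k, (a k : ℤ) * xv L fun i => y (k, κ k, i)

/-- The sum is small. -/
def near (a : Fin n → Fin L) (y : Bt n L K → Bool) (κ : Fin n → K) : Prop :=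
  |Ssum a y κ| ≤ 2 * L

open Classical in
/-- A slot of positive weight. -/
noncomputable def slot0 [NeZero n] (a : Fin n → Fin L) : Fin n :=
  if h : ∃ k, (a k : ℕ) ≠ 0 then h.choose else 0

/-- The bit of a table: the sign of the sum, ties are broken by a bit. -/
noncomputable def tbit [NeZero n] [NeZero L] (a : Fin n → Fin L) (y : Bt n L K → Bool)
    (κ : Fin n → K) : Bool :=
  if 0 < Ssum a y κ then true else if Ssum a y κ < 0 then false
  else y (slot0 a, κ (slot0 a), 0)

/-- The table, for an addressing `adr` of the label tuples `V`. -/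
noncomputable def tbl [NeZero n] [NeZero L] (a : Fin n → Fin L) (y : Bt n L K → Bool)
    (adr : V → Fin n → K) : V → Bool := fun ν => tbit a y (adr ν)

variable [DecidableEq V]

/-- Change of one entry of a table. -/
def flipAt (φ : V → Bool) (ν : V) : V → Bool := Function.update φ ν (!φ ν)

/-- The value of an assignment `Φ` of tables, as a function of the bits. -/
noncomputable def FF [NeZero n] [NeZero L] (Φ : (V → Bool) → Bool) (adr : V → Fin n → K)
    (a : Fin n → Fin L) (y : Bt n L K → Bool) : ℝ := sg (Φ (tbl a y adr))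

/-- The entry `ν` of the table is pivotal for `Φ`. -/
def pivt [NeZero n] [NeZero L] (Φ : (V → Bool) → Bool) (adr : V → Fin n → K)
    (a : Fin n → Fin L) (y : Bt n L K → Bool) (ν : V) : Prop :=
  Φ (flipAt (tbl a y adr) ν) ≠ Φ (tbl a y adr)

/-- The cost of the first test. -/
noncomputable def cost1 [NeZero n] [NeZero L] [Fintype K] [DecidableEq K] [Fintype V]
    (Φ : (V → Bool) → Bool) (adr : V → Fin n → K) (a : Fin n → Fin L) : ℝ :=
  ∑ ν, Pr fun y : Bt n L K → Bool => near a y (adr ν) ∧ pivt Φ adr a y ν

open Classical in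
/-- The probability of pairs of small sums. -/
noncomputable def pairs (n L : ℕ) {K V : Type} [Fintype K] [DecidableEq K] [Fintype V]
    (adr : V → Fin n → K) (a : Fin n → Fin L) : ℝ :=
  ∑ ν : V, ∑ ν' : V, if ν = ν' then 0 else
    Pr fun y : Bt n L K → Bool => near a y (adr ν) ∧ near a y (adr ν')

end

/-- The probability that the weighted sum is small. -/
noncomputable def nu (n L : ℕ) : ℝ :=
  Pr fun p : (Fin n → Fin L) × (Fin n × Unit × Fin (L * L) → Bool) => near p.1 p.2 fun _ => ()

/-- The weights differ by one in one coordinate. -/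
def Adj1 {n L : ℕ} (a a' : Fin n → Fin L) : Prop :=
  ∃ k, (∀ k', k' ≠ k → a k' = a' k') ∧ |((a k : ℕ) : ℤ) - ((a' k : ℕ) : ℤ)| = 1

/-! ### Windows, label tuples, questions -/

/-- A window: a choice of a leg for each slot. The blocks are also indexed by windows. -/
abbrev Win (n N : ℕ) : Type := Fin n → Fin N

/-- A label tuple: a label for each block. -/
abbrev Lab (n N r : ℕ) : Type := Win n N → Fin r

/-- The keys: a leg and a label tuple. -/
abbrev Key (n N r : ℕ) : Type := Fin N × Lab n N r

/-- The seeds. -/
abbrev Sd (n N r L : ℕ) : Type := Bt n L (Key n N r) → Bool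

section

variable {n N r L : ℕ}

/-- Disjoint windows. -/
def Dj (b c : Win n N) : Prop := ∀ k, b k ≠ c k

instance (b c : Win n N) : Decidable (Dj b c) := inferInstanceAs (Decidable (∀ k, b k ≠ c k))

/-- The projections of a tuple of constraints. -/
def prj (e : Win n N → Ed r) (b : Win n N) : Fin r → Fin r := (e b).2.2

/-- The address of the label tuple `ν` for the window `c`: the block `b` is used in slot `k` at the
left level if `b k = c k`. -/
def adr (π : Win n N → Fin r → Fin r) (c : Win n N) (ν : Lab n N r) (k : Fin n) : Key n N r :=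
  (c k, fun b => if b k = c k ∨ Dj b c then ν b else π b (ν b))

/-- The question of the window `c`. -/
def qst (c : Win n N) (e : Win n N → Ed r) : Win n N → Ed r := fun b =>
  if b = c then ((e b).1, 0, id) else if Dj b c then (0, (e b).2.1, id) else e b

/-- Assignments: for a window and a question, a value of each table. -/
abbrev Asg (n N r : ℕ) : Type := Win n N → (Win n N → Ed r) → (Lab n N r → Bool) → Bool

/-- Odd assignments. -/
def Odd' (A : Asg n N r) : Prop := ∀ c q φ, A c q (fun ν => !φ ν) = !A c q φ

/-- The function of the seeds. -/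
noncomputable def Fz [NeZero n] [NeZero L] (A : Asg n N r) (e : Win n N → Ed r) (c : Win n N)
    (a : Fin n → Fin L) : Sd n N r L → ℝ := FF (A c (qst c e)) (adr (prj e) c) a

/-- The cost of the first test at a window and a weight. -/
noncomputable def c1 [NeZero n] [NeZero L] (A : Asg n N r) (e : Win n N → Ed r) (c : Win n N)
    (a : Fin n → Fin L) : ℝ := cost1 (A c (qst c e)) (adr (prj e) c) a

/-- The cost of the third test: change of the leg in slot `k` of weight `0`. -/
noncomputable def c3 [NeZero n] [NeZero L] (A : Asg n N r) (e : Win n N → Ed r) (c : Win n N)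
    (a : Fin n → Fin L) (k : Fin n) (j : Fin N) : ℝ :=
  if a k = 0 ∧ a ≠ 0 then
    Pr fun y : Sd n N r L => Fz A e c a y ≠ Fz A e (Function.update c k j) a y
  else 0

/-- The tuple of constraints with given numbers. -/
def eo (G : PG ℕ ℕ (Fin r) (Fin r)) (p : Win n N → Fin G.length) : Win n N → Ed r :=
  fun b => G.get (p b)

/-- The total cost of an assignment. -/
noncomputable def cost (L W : ℕ) [NeZero n] [NeZero L] (G : PG ℕ ℕ (Fin r) (Fin r))
    (A : Asg n N r) : ℝ :=
  Ex fun z : (Win n N → Fin G.length) × Win n N × (Fin n → Fin L) =>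
    c1 A (eo G z.1) z.2.1 z.2.2 + W * ∑ k, ∑ j, c3 A (eo G z.1) z.2.1 z.2.2 k j

/-- The fine group of a bit for the window `c`. -/
def fgrp (π : Win n N → Fin r → Fin r) (c : Win n N) (i : Bt n L (Key n N r)) :
    Option (Lab n N r) :=
  if i.2.1.1 = c i.1 then
    some fun b => if b i.1 = c i.1 ∧ b ≠ c then π b (i.2.1.2 b) else i.2.1.2 b
  else none

/-- The coarse group of a bit. -/
def cgrp (π : Win n N → Fin r → Fin r) (i : Bt n L (Key n N r)) : Lab n N r :=
  fun b => if b i.1 = i.2.1.1 then π b (i.2.1.2 b) else i.2.1.2 b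

/-- The coarse significance. -/
noncomputable def sig [NeZero n] [NeZero L] (A : Asg n N r) (e : Win n N → Ed r) (c : Win n N)
    (a : Fin n → Fin L) (θ : Lab n N r) : ℝ :=
  sInf (Fz A e c a) {i | cgrp (prj e) i = θ}

/-- The fine significance. -/
noncomputable def fsig [NeZero n] [NeZero L] (A : Asg n N r) (e : Win n N → Ed r) (c : Win n N)
    (a : Fin n → Fin L) (g : Lab n N r) : ℝ :=
  sInf (Fz A e c a) {i | fgrp (prj e) c i = some g}

/-- The energy at a window and a weight. -/
noncomputable def en [NeZero n] [NeZero L] (A : Asg n N r) (e : Win n N → Ed r) (c : Win n N)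
    (a : Fin n → Fin L) : ℝ := energy (fgrp (prj e) c) (Fz A e c a)

/-- The bound `β` for the energy and for the displacement. -/
noncomputable def bet [NeZero n] [NeZero L] (A : Asg n N r) (e : Win n N → Ed r) (c : Win n N)
    (a : Fin n → Fin L) : ℝ := c1 A e c a + pairs n L (adr (prj e) c) a

end

end Vale.Agent.P325.K2
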