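import Vale.Agent.P325.H111.K2.Sound
import Vale.Agent.P325.H111.HardK
import Vale.Agent.P325.H379.K2.Ball
import Vale.Agent.P325.H379.K2.LO
import Vale.Agent.P325.H842.Two
import Vale.Agent.P325.H25.K2.Struct
import Vale.Agent.P325.H25.K2.Bonami
import Vale.Agent.P325.H937.K2.Tail
import Vale.Agent.P325.H290.K2.Low
import Vale.Agent.P325.H469.K2.SmoothInf
import Vale.Agent.P325.H810.K2.AC
import Vale.Agent.P325.H685.K2.E
import Vale.Agent.P325.H660.K2.Win
import Vale.Agent.P325.H664.K2.Pair
import Vale.Agent.P325.H664.K2.PairAvg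
import Vale.Agent.P325.H756.K2.Prune
import Vale.Agent.P325.H439.K2.Decode
import Vale.Agent.P325.H160.K2.Complete
import Vale.Agent.P325.H811.K2.Final

/-!
# The final theorem from the packages
-/

namespace Vale.Agent.P325.K2

theorem ball : BallThm := H379.ballThm

theorem two : TwoThm := twoThm ball

theorem struct : StructThm := H25.structThm H937.K2.tailThm (lowThm H25.bonamiThm)

theorem sound : SoundThm :=
  sound_of struct H469.K2.lipThm H469.K2.monoThm H469.K2.sumThm H756.K2.pruneThm
    (H810.K2.acThm ball two H379.loThm) (pairAvg (pairThm ball two))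
    (winThm H685.K2.energyThm H685.K2.disp)
    (sigThm H469.K2.monoThm H469.K2.irrThm H469.K2.oddThm H685.K2.oddFF)
    (H439.decodeThm H469.K2.sumThm H469.K2.irrThm H469.K2.monoThm) H810.K2.nuPos

/-- The result. -/
theorem final : FinalThm := H811.redThm sound H160C.complete H810.K2.nuPos

/-- The result, unfolded. -/
theorem every_constant : ∀ C : ℝ, ∃ ε₀ : ℝ, 0 < ε₀ ∧ ∀ ε : ℝ, 0 < ε → ε ≤ ε₀ →
    UGHardOver 2 (1 - ε) (1 - C * ε) := final

end Vale.Agent.P325.K2
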