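import Vale.Agent.P325.H111.K2.Stmts

/-!
# The potentials of the coarse groups
-/

namespace Vale.Agent.P325.K2

open Finset Vale.Agent.Lib.PCP Vale.Agent.P342

section

variable {n N r L : ℕ} [NeZero n] [NeZero L]

theorem isSign_FFp {K V : Type} (Φ : (V → Bool) → Bool) (adr : V → Fin n → K)
    (a : Fin n → Fin L) : ∀ y, FF Φ adr a y = 1 ∨ FF Φ adr a y = -1 := by
  intro y
  unfold FF sg
  split_ifs <;> simp

theorem isSign_Fz (A : Asg n N r) (e : Win n N → Ed r) (c : Win n N) (a : Fin n → Fin L) :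
    IsSign (Fz A e c a) := isSign_FFp _ _ _

/-- The potential. -/
noncomputable def psi (τ : ℝ) (A : Asg n N r) (e : Win n N → Ed r) (c : Win n N)
    (a : Fin n → Fin L) (θ : Lab n N r) : ℝ := min 1 (max 0 (2 * sig A e c a θ / τ - 1))

variable {τ : ℝ} (A : Asg n N r) (e : Win n N → Ed r) (c c' : Win n N) (a a' : Fin n → Fin L)
  (θ : Lab n N r)

theorem psi_nonneg : 0 ≤ psi τ A e c a θ := le_min zero_le_one (le_max_left _ _)

theorem psi_le_one : psi τ A e c a θ ≤ 1 := min_le_left _ _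

theorem sig_nonneg (hM : MonoThm) : 0 ≤ sig A e c a θ := (hM _ _ _ _ (Subset.refl _)).2.2

theorem sum_sig_le (hSum : SumThm) : ∑ θ, sig A e c a θ ≤ 1 :=
  hSum _ _ (Fz A e c a) (isSign_Fz A e c a) (cgrp (prj e))

theorem sig_of_psi (hτ : 0 < τ) (h : psi τ A e c a θ ≠ 0) : τ / 2 < sig A e c a θ := by
  by_contra h1
  push Not at h1
  apply h
  have h2 : 2 * sig A e c a θ / τ - 1 ≤ 0 := by
    rw [sub_nonpos, div_le_one hτ]
    linarith
  rw [psi, max_eq_left h2]
  simp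

theorem ind_le (hM : MonoThm) (hτ : 0 < τ) :
    (if psi τ A e c a θ ≠ 0 then (1 : ℝ) else 0) ≤ 2 / τ * sig A e c a θ := by
  split_ifs with h
  · have h1 := sig_of_psi A e c a θ hτ h
    rw [div_mul_eq_mul_div, le_div_iff₀ hτ]
    linarith
  · exact mul_nonneg (by positivity) (sig_nonneg A e c a θ hM)

theorem sum_ind_le (hM : MonoThm) (hSum : SumThm) (hτ : 0 < τ) :
    ∑ θ, (if psi τ A e c a θ ≠ 0 then (1 : ℝ) else 0) ≤ 2 / τ := by
  calc ∑ θ, (if psi τ A e c a θ ≠ 0 then (1 : ℝ) else 0)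
      ≤ ∑ θ, 2 / τ * sig A e c a θ := sum_le_sum fun θ _ => ind_le A e c a θ hM hτ
    _ = 2 / τ * ∑ θ, sig A e c a θ := by rw [mul_sum]
    _ ≤ 2 / τ * 1 := mul_le_mul_of_nonneg_left (sum_sig_le A e c a hSum) (by positivity)
    _ = _ := mul_one _

theorem psi_le_ind : psi τ A e c a θ ≤ if psi τ A e c a θ ≠ 0 then (1 : ℝ) else 0 := by
  split_ifs with h
  · exact psi_le_one A e c a θ
  · push Not at h
    rw [h]

theorem sum_psi_le (hM : MonoThm) (hSum : SumThm) (hτ : 0 < τ) :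
    ∑ θ, psi τ A e c a θ ≤ 2 / τ :=
  (sum_le_sum fun θ _ => psi_le_ind A e c a θ).trans (sum_ind_le A e c a hM hSum hτ)

theorem psi_lip (hL : LipThm) (hτ : 0 < τ) :
    |psi τ A e c a θ - psi τ A e c' a' θ| ≤
      16 / τ * Pr fun y : Sd n N r L => Fz A e c a y ≠ Fz A e c' a' y := by
  have h1 : |sig A e c a θ - sig A e c' a' θ| ≤
      8 * Pr fun y : Sd n N r L => Fz A e c a y ≠ Fz A e c' a' y :=
    hL _ _ _ (isSign_Fz A e c a) (isSign_Fz A e c' a') _
  have h2 : |psi τ A e c a θ - psi τ A e c' a' θ| ≤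
      |(2 * sig A e c a θ / τ - 1) - (2 * sig A e c' a' θ / τ - 1)| := by
    unfold psi
    refine (abs_min_sub_min_le_max _ _ _ _).trans ?_
    rw [sub_self, abs_zero, max_eq_right (abs_nonneg _)]
    refine (abs_max_sub_max_le_max _ _ _ _).trans ?_
    rw [sub_self, abs_zero, max_eq_right (abs_nonneg _)]
  have h3 : (2 * sig A e c a θ / τ - 1) - (2 * sig A e c' a' θ / τ - 1) =
      2 / τ * (sig A e c a θ - sig A e c' a' θ) := by ring
  rw [h3, abs_mul, abs_of_pos (by positivity : 0 < 2 / τ)] at h2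
  refine h2.trans ?_
  calc 2 / τ * |sig A e c a θ - sig A e c' a' θ|
      ≤ 2 / τ * (8 * Pr fun y : Sd n N r L => Fz A e c a y ≠ Fz A e c' a' y) :=
        mul_le_mul_of_nonneg_left h1 (by positivity)
    _ = _ := by ring

theorem max_psi_le (hL : LipThm) (hτ : 0 < τ) :
    max 0 (psi τ A e c a θ - psi τ A e c' a' θ) ≤
      (16 / τ * Pr fun y : Sd n N r L => Fz A e c a y ≠ Fz A e c' a' y) *
        if psi τ A e c a θ ≠ 0 then (1 : ℝ) else 0 := by
  split_ifs with h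
  · rw [mul_one]
    exact max_le (mul_nonneg (by positivity) (Pr_nonneg _))
      ((le_abs_self _).trans (psi_lip A e c c' a a' θ hL hτ))
  · push Not at h
    rw [h, mul_zero, zero_sub]
    exact max_le le_rfl (neg_nonpos.2 (psi_nonneg A e c' a' θ))

theorem sum_max_psi_le (hL : LipThm) (hM : MonoThm) (hSum : SumThm) (hτ : 0 < τ) :
    ∑ θ, max 0 (psi τ A e c a θ - psi τ A e c' a' θ) ≤
      (16 / τ * Pr fun y : Sd n N r L => Fz A e c a y ≠ Fz A e c' a' y) * (2 / τ) := by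
  refine (sum_le_sum fun θ _ => max_psi_le A e c c' a a' θ hL hτ).trans ?_
  rw [← mul_sum]
  exact mul_le_mul_of_nonneg_left (sum_ind_le A e c a hM hSum hτ)
    (mul_nonneg (by positivity) (Pr_nonneg _))

theorem sum_max_psi_le' (hM : MonoThm) (hSum : SumThm) (hτ : 0 < τ) :
    ∑ θ, max 0 (psi τ A e c a θ - psi τ A e c' a' θ) ≤ 2 / τ := by
  refine (sum_le_sum fun θ _ => ?_).trans (sum_psi_le A e c a hM hSum hτ)
  exact max_le (psi_nonneg A e c a θ) (sub_le_self _ (psi_nonneg A e c' a' θ))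

theorem one_le_sum_psi [NeZero N] [NeZero r] (hSig : SigThm) {E : ℝ} (hS : StructAt E (1 / 2) τ)
    (hτ : 0 < τ) (hA : Odd' A) (hE : en A e c a ≤ E) : 1 ≤ ∑ θ, psi τ A e c a θ := by
  obtain ⟨θ, hθ⟩ := hSig n N r L E τ hS A hA e c a hE
  have h1 : psi τ A e c a θ = 1 := by
    have h2 : 1 ≤ 2 * sig A e c a θ / τ - 1 := by
      rw [le_sub_iff_add_le, le_div_iff₀ hτ]
      linarith
    rw [psi, max_eq_right (by linarith), min_eq_left h2]
  rw [← h1]
  exact single_le_sum (fun θ _ => psi_nonneg A e c a θ) (mem_univ θ)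

end

end Vale.Agent.P325.K2
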