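import Vale.Agent.P325.H111.K2.StepC

/-!
# The soundness of the reduction, from the packages
-/

namespace Vale.Agent.P325.K2

open Finset Vale.Agent.Lib.PCP Vale.Agent.P342

section

variable {n N r L : ℕ} [NeZero n] [NeZero N] [NeZero r] [NeZero L]

theorem cost1_nonneg {K V : Type} [Fintype K] [DecidableEq K] [Fintype V] [DecidableEq V]
    (Φ : (V → Bool) → Bool) (adr : V → Fin n → K) (a : Fin n → Fin L) : 0 ≤ cost1 Φ adr a :=
  sum_nonneg fun _ _ => Pr_nonneg _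

omit [NeZero n] [NeZero L] in
theorem pairs_nonneg {K V : Type} [Fintype K] [DecidableEq K] [Fintype V]
    (adr : V → Fin n → K) (a : Fin n → Fin L) : 0 ≤ pairs n L adr a :=
  sum_nonneg fun _ _ => sum_nonneg fun _ _ => by
    split_ifs
    · exact le_rfl
    · exact Pr_nonneg _

omit [NeZero n] in
theorem pr_zero : (Pr fun a : Fin n → Fin L => a = 0) = 1 / (L : ℝ) ^ n := by
  classical
  rw [Pr, Ex]
  have h6 : ∀ v : Fin n → Fin L, (@ite ℝ (v = 0) (Classical.propDecidable _) 1 0) =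
      if v = 0 then 1 else 0 := by
    intro v
    congr
  simp only [h6]
  simp

omit [NeZero r] in
theorem avg_psi_le {τ : ℝ} (A : Asg n N r) (e : Win n N → Ed r) (hM : MonoThm) (hSum : SumThm)
    (hτ : 0 < τ) : (Ex fun w : WA n N L => ∑ θ, psi τ A e w.1 w.2 θ) ≤ 2 / τ := by
  have h1 : (Ex fun w : WA n N L => ∑ θ, psi τ A e w.1 w.2 θ) ≤ Ex fun _ : WA n N L => 2 / τ := by
    refine Ex_mono fun w => ?_
    exact sum_psi_le A e w.1 w.2 hM hSum hτ
  refine h1.trans (le_of_eq ?_)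
  exact Ex_const (2 / τ)

/-- The bound of the pruning step. -/
noncomputable def ubd (L : ℕ) [NeZero L] (τ : ℝ) (A : Asg n N r) (e : Win n N → Ed r) : ℝ :=
  3 * L * (16 / τ * (2 / τ) * Ex fun w : WA n N L => bet A e w.1 w.2) +
    2 * L * ((16 / τ * (2 / τ) / N * Ex fun w : WA n N L => ∑ k, ∑ j, c3 A e w.1 w.2 k j) +
      n * (2 / τ) * Pr fun a : Fin n → Fin L => a = 0)

omit [NeZero N] [NeZero r] in
theorem ubd_nonneg {τ : ℝ} (A : Asg n N r) (e : Win n N → Ed r) (hτ : 0 < τ)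
    (hB0 : ∀ (c : Win n N) (a : Fin n → Fin L), 0 ≤ bet A e c a) : 0 ≤ ubd L τ A e := by
  have h1 : 0 ≤ Ex fun w : WA n N L => bet A e w.1 w.2 := Ex_nonneg fun w => hB0 _ _
  have h2 : 0 ≤ Ex fun w : WA n N L => ∑ k, ∑ j, c3 A e w.1 w.2 k j :=
    Ex_nonneg fun w => sum_nonneg fun k _ => sum_nonneg fun j _ => c3_nonneg A _ _ _ _ _
  have h3 : 0 ≤ Pr fun a : Fin n → Fin L => a = 0 := Pr_nonneg _
  unfold ubd
  positivity

open Classical in
theorem psi_le_ubd {τ t : ℝ} (A : Asg n N r) (e : Win n N → Ed r) (hP : PruneThm) (hL : LipThm)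
    (hM : MonoThm) (hSum : SumThm) (hWin : WinThm) (hτ : 0 < τ)
    (ht : t * (4 * n) ^ (2 * n) ≤ 1) (hn : 0 < n)
    (hB0 : ∀ (c : Win n N) (a : Fin n → Fin L), 0 ≤ bet A e c a) :
    (Ex fun w : WA n N L => ∑ θ, psi τ A e w.1 w.2 θ) ≤
      2 / τ * (if Bad (L := L) τ t A e then (1 : ℝ) else 0) + ubd L τ A e := by
  by_cases hb : Bad (L := L) τ t A e
  · rw [if_pos hb, mul_one]
    have h2 := avg_psi_le (L := L) A e hM hSum hτ
    have h3 := ubd_nonneg A e hτ hB0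
    linarith
  · rw [if_neg hb, mul_zero, zero_add]
    exact stepC A e hP hL hM hSum hWin hτ ht hn hB0 hb

omit [NeZero N] [NeZero r] in
theorem Ex_ubd {τ : ℝ} {G : PG ℕ ℕ (Fin r) (Fin r)} (A : Asg n N r)
    [Nonempty (Fin G.length)] :
    (Ex fun p : Win n N → Fin G.length => ubd L τ A (eo G p)) =
      3 * L * (16 / τ * (2 / τ) * Ex fun z : ZZ G n N L => bet A (eo G z.1) z.2.1 z.2.2) +
      2 * L * ((16 / τ * (2 / τ) / N * Ex fun z : ZZ G n N L =>
          ∑ k, ∑ j, c3 A (eo G z.1) z.2.1 z.2.2 k j) +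
        n * (2 / τ) * Pr fun a : Fin n → Fin L => a = 0) := by
  unfold ubd
  rw [Ex_add, Ex_const_mul, Ex_const_mul, Ex_const_mul, Ex_add, Ex_const_mul, Ex_const,
    Ex_prod, Ex_prod]

/-- The main inequality. -/
theorem main_ineq {τ : ℝ} {G : PG ℕ ℕ (Fin r) (Fin r)} (A : Asg n N r) (hG : G ≠ [])
    (hP : PruneThm) (hL : LipThm) (hM : MonoThm) (hSum : SumThm) (hWin : WinThm)
    (hτ : 0 < τ) {t : ℝ} (ht : t * (4 * n) ^ (2 * n) ≤ 1) (hn : 0 < n)
    (hB0 : ∀ z : ZZ G n N L, 0 ≤ bet A (eo G z.1) z.2.1 z.2.2) :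
    (Ex fun z : ZZ G n N L => ∑ θ, psi τ A (eo G z.1) z.2.1 z.2.2 θ) ≤
      2 / τ * Pr (fun p : Win n N → Fin G.length => Bad (L := L) τ t A (eo G p)) +
      (3 * L * (16 / τ * (2 / τ) * Ex fun z : ZZ G n N L => bet A (eo G z.1) z.2.1 z.2.2) +
      2 * L * ((16 / τ * (2 / τ) / N * Ex fun z : ZZ G n N L =>
          ∑ k, ∑ j, c3 A (eo G z.1) z.2.1 z.2.2 k j) +
        n * (2 / τ) * Pr fun a : Fin n → Fin L => a = 0)) := by
  have : Nonempty (Fin G.length) := ⟨⟨0, List.length_pos_iff.2 hG⟩⟩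
  rw [← Ex_ubd, Pr, ← Ex_const_mul, ← Ex_add, Ex_prod]
  refine Ex_mono fun p => ?_
  exact psi_le_ubd A (eo G p) hP hL hM hSum hWin hτ ht hn fun c a => hB0 (p, (c, a))

end

/-- The soundness, from the packages. -/
theorem sound_of (hS : StructThm) (hL : LipThm) (hM : MonoThm) (hSum : SumThm) (hP : PruneThm)
    (hAC : ACThm) (hPA : PairAvg) (hWin : WinThm) (hSig : SigThm) (hDec : DecodeThm)
    (hNu : NuPos) : SoundThm := by
  intro C
  obtain ⟨C0, hC0, hac⟩ := hAC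
  set C1 : ℝ := max C 1 with hC1
  have hC1p : 0 < C1 := lt_of_lt_of_le one_pos (le_max_right _ _)
  set E1 : ℝ := C1 * C0 + 1 with hE1
  have hE1p : 0 < E1 := by positivity
  obtain ⟨τ, hτ, hSτ⟩ := hS (4 * E1) (1 / 2) (by norm_num)
  have hSτ' : StructAt (4 * E1) (1 / 2) τ := hSτ
  set M : ℝ := 16 / τ * (2 / τ) with hMdef
  have hMp : 0 < M := by positivity
  -- the number of slots
  obtain ⟨n, hn3, hnM⟩ : ∃ n : ℕ, 3 ≤ n ∧ 48 * M * E1 ≤ Real.sqrt n := by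
    refine ⟨max 3 ⌈(48 * M * E1) ^ 2⌉₊, le_max_left _ _, ?_⟩
    refine Real.le_sqrt_of_sq_le ?_
    refine (Nat.le_ceil _).trans ?_
    exact_mod_cast le_max_right _ _
  have hn0 : 0 < n := by omega
  have hsq : (0 : ℝ) < Real.sqrt n := Real.sqrt_pos.2 (by exact_mod_cast hn0)
  have hsq1 : (1 : ℝ) ≤ Real.sqrt n := by
    rw [Real.one_le_sqrt]
    exact_mod_cast hn0
  have hnz : NeZero n := ⟨hn0.ne'⟩
  set t : ℝ := 1 / (4 * n) ^ (2 * n) with ht
  have htp : 0 < t := by positivity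
  have ht1 : t * (4 * n) ^ (2 * n) ≤ 1 := by
    rw [ht, one_div, inv_mul_cancel₀ (by positivity)]
  -- the number of legs
  obtain ⟨N, hN0, hN⟩ : ∃ N : ℕ, 0 < N ∧ (n : ℝ) / N ≤ t ^ 2 / 2 := by
    refine ⟨⌈2 * n / t ^ 2⌉₊ + 1, Nat.succ_pos _, ?_⟩
    have h1 : 2 * n / t ^ 2 ≤ ((⌈2 * n / t ^ 2⌉₊ + 1 : ℕ) : ℝ) := by
      push_cast
      linarith [Nat.le_ceil (2 * n / t ^ 2)]
    rw [div_le_iff₀ (by positivity)] at h1
    rw [div_le_iff₀ (by positivity)]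
    linarith
  have hNz : NeZero N := ⟨hN0.ne'⟩
  have hN1 : (1 : ℝ) ≤ N := by exact_mod_cast hN0
  set Em : ℝ := 64 * E1 / (t ^ 2 * τ) with hEm
  have hEmp : 0 < Em := by positivity
  obtain ⟨τ', hτ', hSτm⟩ := hS Em (τ / 4) (by positivity)
  have hSτm' : StructAt Em (τ / 4) τ' := hSτm
  obtain ⟨J, hJ1, hJ2, hJ0⟩ : ∃ J : ℕ, 1 / τ' ≤ J ∧ 2 / τ ≤ J ∧ (0 : ℝ) < J := by
    refine ⟨max (max ⌈1 / τ'⌉₊ ⌈2 / τ⌉₊) 1, ?_, ?_, ?_⟩
    · refine (Nat.le_ceil _).trans ?_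
      exact_mod_cast (le_max_left _ _).trans (le_max_left _ _)
    · refine (Nat.le_ceil _).trans ?_
      exact_mod_cast (le_max_right _ _).trans (le_max_left _ _)
    · exact_mod_cast lt_of_lt_of_le one_pos (le_max_right _ _)
  set η : ℝ := t ^ 2 * τ / (64 * J ^ 2) with hη
  have hηp : 0 < η := by positivity
  refine ⟨n, N, hnz, hNz, η, hηp, fun r hr => ?_⟩
  obtain ⟨L0, hL0⟩ := hPA n N r hn3 (1 / Real.sqrt n) (by positivity)
  obtain ⟨L, hLL, hL2, hLe, hLt⟩ : ∃ L : ℕ, L0 ≤ L ∧ 2 ≤ L ∧ Even L ∧ 64 * n / τ ≤ L := by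
    refine ⟨2 * (L0 + 1 + ⌈64 * n / τ⌉₊), by omega, by omega, even_two_mul _, ?_⟩
    push_cast
    have h1 := Nat.le_ceil (64 * n / τ)
    have h2 : (0 : ℝ) ≤ L0 := Nat.cast_nonneg _
    have h3 : (0 : ℝ) ≤ ⌈64 * n / τ⌉₊ := Nat.cast_nonneg _
    linarith
  have hLpos : 0 < L := by omega
  have hLr : (0 : ℝ) < L := by exact_mod_cast hLpos
  have hLz : NeZero L := ⟨hLpos.ne'⟩
  obtain ⟨W, hW0, hW⟩ : ∃ W : ℕ, (0 : ℝ) < W ∧ 32 * M * C1 * C0 ≤ W := by
    refine ⟨⌈32 * M * C1 * C0⌉₊ + 1, by positivity, ?_⟩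
    push_cast
    linarith [Nat.le_ceil (32 * M * C1 * C0)]
  refine ⟨L, W, hLz, fun G hG hGs A hA => ?_⟩
  by_contra hcon
  push Not at hcon
  have : Nonempty (Fin G.length) := ⟨⟨0, List.length_pos_iff.2 hG⟩⟩
  have hnuac := hac n L hn3 hL2 hLe
  have hnup := hNu n L hLpos
  have hcost : cost L W G A ≤ C1 * C0 / (L * Real.sqrt n) := by
    refine hcon.trans ?_
    calc C * nu n L ≤ C1 * nu n L := mul_le_mul_of_nonneg_right (le_max_left _ _) hnup.le
      _ ≤ C1 * (C0 / (L * Real.sqrt n)) := mul_le_mul_of_nonneg_left hnuac hC1p.le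
      _ = _ := by ring
  have hcost_eq : cost L W G A = (Ex fun z : ZZ G n N L => c1 A (eo G z.1) z.2.1 z.2.2) +
      W * Ex fun z : ZZ G n N L => ∑ k, ∑ j, c3 A (eo G z.1) z.2.1 z.2.2 k j := by
    rw [cost, Ex_add, Ex_const_mul]
  have hc1 : 0 ≤ Ex fun z : ZZ G n N L => c1 A (eo G z.1) z.2.1 z.2.2 :=
    Ex_nonneg fun z => cost1_nonneg _ _ _
  have hc3 : 0 ≤ Ex fun z : ZZ G n N L => ∑ k, ∑ j, c3 A (eo G z.1) z.2.1 z.2.2 k j :=
    Ex_nonneg fun z => sum_nonneg fun k _ => sum_nonneg fun j _ => c3_nonneg A _ _ _ _ _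
  set X3 := Ex fun z : ZZ G n N L => ∑ k, ∑ j, c3 A (eo G z.1) z.2.1 z.2.2 k j with hX3
  set X1 := Ex fun z : ZZ G n N L => c1 A (eo G z.1) z.2.1 z.2.2 with hX1
  have hB0 : ∀ z : ZZ G n N L, 0 ≤ bet A (eo G z.1) z.2.1 z.2.2 := fun z =>
    add_nonneg (cost1_nonneg _ _ _) (pairs_nonneg _ _)
  set XB := Ex fun z : ZZ G n N L => bet A (eo G z.1) z.2.1 z.2.2 with hXB
  have hpairs : (Ex fun z : ZZ G n N L => pairs n L (adr (prj (eo G z.1)) z.2.1) z.2.2) ≤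
      1 / Real.sqrt n / L := by
    rw [Ex_prod]
    refine (Ex_mono (g := fun _ => 1 / Real.sqrt n / L) fun p => ?_).trans (Ex_const _).le
    rw [Ex_prod]
    refine (Ex_mono (g := fun _ => 1 / Real.sqrt n / L) fun c => ?_).trans (Ex_const _).le
    exact hL0 L hLL hLe (prj (eo G p)) c
  have hXBle : XB ≤ E1 / (L * Real.sqrt n) := by
    have h1 : XB = X1 +
        Ex fun z : ZZ G n N L => pairs n L (adr (prj (eo G z.1)) z.2.1) z.2.2 := by
      rw [hXB, hX1, ← Ex_add]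
      rfl
    have h2 : X1 ≤ C1 * C0 / (L * Real.sqrt n) := by
      have : 0 ≤ W * X3 := by positivity
      linarith
    have h3 : E1 / (L * Real.sqrt n) = C1 * C0 / (L * Real.sqrt n) + 1 / Real.sqrt n / L := by
      rw [hE1]
      field_simp
    rw [h1, h3]
    exact add_le_add h2 hpairs
  have hXBE : (Ex fun z : ZZ G n N L => L * Real.sqrt n * bet A (eo G z.1) z.2.1 z.2.2) ≤ E1 := by
    rw [Ex_const_mul]
    calc L * Real.sqrt n * XB ≤ L * Real.sqrt n * (E1 / (L * Real.sqrt n)) :=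
          mul_le_mul_of_nonneg_left hXBle (by positivity)
      _ = E1 := by field_simp
  have hA1 := stepA A hG hSig hWin hE1p hSτ' hτ hA hXBE hB0
  have hA2 := stepB (t := t) A hG hWin hDec hτ hτ' hSτm' hJ1 hJ2 hGs htp hN hEmp hηp.le hB0
  have hA3 := main_ineq (τ := τ) (t := t) A hG hP hL hM hSum hWin hτ ht1 hn0 hB0
  rw [← hX3, ← hXB, pr_zero, ← hMdef] at hA3
  set PB := Pr (fun p : Win n N → Fin G.length => Bad (L := L) τ t A (eo G p)) with hPB
  -- first term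
  have hT1 : 2 / τ * PB ≤ 1 / 8 := by
    have h1 : PB * (t ^ 2 / 2) ≤ t ^ 2 * τ / 32 := by
      refine hA2.trans ?_
      have h2 : (J : ℝ) ^ 2 * η = t ^ 2 * τ / 64 := by
        rw [hη]
        field_simp
      have h3 : (Ex fun z : ZZ G n N L => L * Real.sqrt n * bet A (eo G z.1) z.2.1 z.2.2) / Em ≤
          t ^ 2 * τ / 64 := by
        rw [div_le_iff₀ hEmp, hEm]
        refine hXBE.trans (le_of_eq ?_)
        field_simp
      rw [h2]
      linarith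
    have h4 : PB ≤ τ / 16 := by
      have h5 : PB * (t ^ 2 / 2) ≤ τ / 16 * (t ^ 2 / 2) := by
        refine h1.trans (le_of_eq ?_)
        ring
      exact le_of_mul_le_mul_right h5 (by positivity)
    calc 2 / τ * PB ≤ 2 / τ * (τ / 16) := mul_le_mul_of_nonneg_left h4 (by positivity)
      _ = 1 / 8 := by field_simp; norm_num
  -- second term
  have hT2 : 3 * L * (M * XB) ≤ 1 / 16 := by
    have h1 : 3 * L * (M * XB) ≤ 3 * L * (M * (E1 / (L * Real.sqrt n))) :=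
      mul_le_mul_of_nonneg_left (mul_le_mul_of_nonneg_left hXBle hMp.le) (by positivity)
    refine h1.trans ?_
    have h2 : 3 * L * (M * (E1 / (L * Real.sqrt n))) = 3 * M * E1 / Real.sqrt n := by
      field_simp
    rw [h2, div_le_iff₀ hsq]
    linarith
  -- third term
  have hT3 : 2 * L * (M / N * X3) ≤ 1 / 16 := by
    have h1 : W * X3 ≤ C1 * C0 / (L * Real.sqrt n) := by linarith
    have h2 : L * (W * X3) ≤ C1 * C0 := by
      calc L * (W * X3) ≤ L * (C1 * C0 / (L * Real.sqrt n)) :=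
            mul_le_mul_of_nonneg_left h1 hLr.le
        _ = C1 * C0 / Real.sqrt n := by field_simp
        _ ≤ C1 * C0 := div_le_self (by positivity) hsq1
    have h3 : W * (2 * L * (M / N * X3)) ≤ W * (1 / 16) := by
      calc W * (2 * L * (M / N * X3)) = 2 * M / N * (L * (W * X3)) := by ring
        _ ≤ 2 * M / N * (C1 * C0) := mul_le_mul_of_nonneg_left h2 (by positivity)
        _ ≤ 2 * M * (C1 * C0) := by
            refine mul_le_mul_of_nonneg_right (div_le_self (by positivity) hN1) (by positivity)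
        _ ≤ W * (1 / 16) := by linarith
    exact le_of_mul_le_mul_left h3 hW0
  -- fourth term
  have hT4 : 2 * L * (n * (2 / τ) * (1 / (L : ℝ) ^ n)) ≤ 1 / 16 := by
    have hL1 : (1 : ℝ) ≤ L := by exact_mod_cast hLpos
    have h1 : (L : ℝ) ^ 2 ≤ (L : ℝ) ^ n := pow_le_pow_right₀ hL1 (by omega)
    have h2 : 1 / (L : ℝ) ^ n ≤ 1 / (L : ℝ) ^ 2 :=
      one_div_le_one_div_of_le (by positivity) h1
    calc 2 * L * (n * (2 / τ) * (1 / (L : ℝ) ^ n))
        ≤ 2 * L * (n * (2 / τ) * (1 / (L : ℝ) ^ 2)) := by gcongr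
      _ = 4 * n / τ / L := by field_simp; norm_num
      _ ≤ 1 / 16 := by
          rw [div_le_iff₀ hLr]
          have h3 : 4 * n / τ = 64 * n / τ / 16 := by ring
          rw [h3]
          linarith
  have hfin : (3 : ℝ) / 4 ≤ 1 / 8 + (1 / 16 + (1 / 16 + 1 / 16)) := by
    refine hA1.trans (hA3.trans ?_)
    rw [mul_add (2 * (L : ℝ))]
    exact add_le_add hT1 (add_le_add hT2 (add_le_add hT3 hT4))
  norm_num at hfin

end Vale.Agent.P325.K2
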