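import Vale.Agent.P325.H111.K2.Psi

/-!
# The averaging steps of the soundness proof
-/

namespace Vale.Agent.P325.K2

open Finset Vale.Agent.Lib.PCP Vale.Agent.P342

section

variable {α β : Type} [Fintype α] [Fintype β]

theorem Ex_fst [Nonempty β] (f : α → ℝ) : (Ex fun w : α × β => f w.1) = Ex f := by
  rw [Ex_prod]
  exact Ex_congr fun x => Ex_const (f x)

theorem Ex_snd [Nonempty α] (f : β → ℝ) : (Ex fun w : α × β => f w.2) = Ex f := by
  rw [Ex_prod, Ex_comm]
  exact Ex_congr fun x => Ex_const (f x)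

theorem Pr_fst [Nonempty β] (p : α → Prop) : (Pr fun w : α × β => p w.1) = Pr p := by
  classical
  exact Ex_fst fun x => if p x then (1 : ℝ) else 0

theorem Ex_eval [Nonempty α] {I : Type} [Fintype I] [DecidableEq I] (k : I) (f : α → ℝ) :
    (Ex fun b : I → α => f (b k)) = Ex f := by
  have h1 := Ex_comp_inj (I := I) (J := Unit) (α := α) (fun _ => k)
    (fun _ _ _ => rfl) (fun g => f (g ()))
  rw [h1]
  exact Ex_equiv (Equiv.funUnique Unit α) f

theorem Pr_eval [Nonempty α] {I : Type} [Fintype I] [DecidableEq I] (k : I) (p : α → Prop) :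
    (Pr fun b : I → α => p (b k)) = Pr p := by
  classical
  exact Ex_eval k fun x => if p x then (1 : ℝ) else 0

theorem Pr_indep (p : α → Prop) (q : β → Prop) :
    (Pr fun w : α × β => p w.1 ∧ q w.2) = Pr p * Pr q := by
  classical
  unfold Pr
  rw [Ex_prod, ← Ex_mul_const]
  refine Ex_congr fun x => ?_
  dsimp only
  rw [← Ex_const_mul]
  refine Ex_congr fun y => ?_
  by_cases h1 : p x <;> by_cases h2 : q y <;> simp [h1, h2]

end

section

variable {n N r L : ℕ} [NeZero n] [NeZero N] [NeZero r] [NeZero L]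

/-- A window and a weight. -/
abbrev WA (n N L : ℕ) : Type := Win n N × (Fin n → Fin L)

/-- Numbers of constraints, a window and a weight. -/
abbrev ZZ (G : PG ℕ ℕ (Fin r) (Fin r)) (n N L : ℕ) : Type := (Win n N → Fin G.length) × WA n N L

variable {τ : ℝ} {G : PG ℕ ℕ (Fin r) (Fin r)} (A : Asg n N r)

/-- Many windows and weights have a significant group. -/
theorem stepA (hG : G ≠ []) (hSig : SigThm) (hWin : WinThm) {E1 : ℝ} (hE1 : 0 < E1)
    (hS : StructAt (4 * E1) (1 / 2) τ) (hτ : 0 < τ) (hA : Odd' A)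
    (hB : (Ex fun z : ZZ G n N L => L * Real.sqrt n * bet A (eo G z.1) z.2.1 z.2.2) ≤ E1)
    (hB0 : ∀ z : ZZ G n N L, 0 ≤ bet A (eo G z.1) z.2.1 z.2.2) :
    3 / 4 ≤ Ex fun z : ZZ G n N L => ∑ θ, psi τ A (eo G z.1) z.2.1 z.2.2 θ := by
  classical
  have : Nonempty (Fin G.length) := ⟨⟨0, List.length_pos_iff.2 hG⟩⟩
  set F : ZZ G n N L → ℝ := fun z => L * Real.sqrt n * bet A (eo G z.1) z.2.1 z.2.2 with hF
  have hF0 : ∀ z, 0 ≤ F z := fun z => mul_nonneg (by positivity) (hB0 z)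
  have h1 : Pr (fun z => 4 * E1 < F z) ≤ 1 / 4 := by
    refine (Pr_le_of_Ex hF0 (by positivity)).trans ?_
    rw [div_le_iff₀ (by positivity)]
    linarith
  have h2 : 3 / 4 ≤ Pr fun z => ¬ 4 * E1 < F z := by
    rw [Pr_not]
    linarith
  refine h2.trans (Ex_mono fun z => ?_)
  dsimp only
  by_cases h : 4 * E1 < F z
  · rw [if_neg (not_not.2 h)]
    exact sum_nonneg fun θ _ => psi_nonneg A _ _ _ θ
  rw [if_pos h]
  · push Not at h
    refine one_le_sum_psi A _ _ _ hSig hS hτ hA ?_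
    exact ((hWin n N r L A (eo G z.1) z.2.1 z.2.2).1).trans h

omit [NeZero n] in
/-- Two random windows are disjoint with high probability. -/
theorem pr_not_Dj : (Pr fun w : WA n N L × WA n N L => ¬ Dj w.1.1 w.2.1) ≤ n / N := by
  classical
  have h1 : (Pr fun w : WA n N L × WA n N L => ¬ Dj w.1.1 w.2.1) =
      Pr fun w : Win n N × Win n N => ¬ Dj w.1 w.2 := by
    rw [Pr_prod, Pr_prod]
    have h2 : ∀ x : WA n N L, (Pr fun y : WA n N L => ¬ Dj x.1 y.1) =
        Pr fun y : Win n N => ¬ Dj x.1 y := fun x => Pr_fst fun y : Win n N => ¬ Dj x.1 y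
    simp only [h2]
    exact Ex_fst fun x : Win n N => Pr fun y : Win n N => ¬ Dj x y
  have h3 : (Pr fun w : Win n N × Win n N => ¬ Dj w.1 w.2) ≤
      ∑ k, Pr fun w : Win n N × Win n N => w.1 k = w.2 k := by
    refine le_trans (Pr_mono fun w hw => ?_) (Pr_exists_le _)
    simpa [Dj] using hw
  have h4 : ∀ k, (Pr fun w : Win n N × Win n N => w.1 k = w.2 k) = 1 / N := by
    intro k
    rw [Pr_prod]
    have h5 : ∀ x : Win n N, (Pr fun y : Win n N => x k = y k) = 1 / N := by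
      intro x
      rw [Pr_eval k fun v : Fin N => x k = v, Pr, Ex]
      have h6 : ∀ v : Fin N, (@ite ℝ (x k = v) (Classical.propDecidable _) 1 0) =
          if x k = v then 1 else 0 := by
        intro v
        congr
      simp only [h6]
      simp
    simp only [h5]
    exact Ex_const _
  rw [h1]
  refine h3.trans ?_
  simp only [h4, sum_const, card_univ, Fintype.card_fin, nsmul_eq_mul]
  rw [mul_one_div]

/-- A tuple of constraints is bad if some potential has a large support. -/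
def Bad (τ t : ℝ) (A : Asg n N r) (e : Win n N → Ed r) : Prop :=
  ∃ θ, t ≤ Pr fun w : WA n N L => psi τ A e w.1 w.2 θ ≠ 0

/-- There are few bad tuples. -/
theorem stepB (hG : G ≠ []) (hWin : WinThm) (hDec : DecodeThm) {Em τ' η t : ℝ} {J : ℕ}
    (hτ : 0 < τ) (hτ' : 0 < τ') (hS : StructAt Em (τ / 4) τ') (hJ : 1 / τ' ≤ J) (hJ2 : 2 / τ ≤ J)
    (hη : G.Sound η) (ht : 0 < t) (hN : (n : ℝ) / N ≤ t ^ 2 / 2) (hEm : 0 < Em)
    (hη0 : 0 ≤ η)
    (hB0 : ∀ z : ZZ G n N L, 0 ≤ bet A (eo G z.1) z.2.1 z.2.2) :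
    Pr (fun p : Win n N → Fin G.length => Bad (L := L) τ t A (eo G p)) * (t ^ 2 / 2) ≤
      (J : ℝ) ^ 2 * η +
      (Ex fun z : ZZ G n N L => L * Real.sqrt n * bet A (eo G z.1) z.2.1 z.2.2) / Em := by
  classical
  have : Nonempty (Fin G.length) := ⟨⟨0, List.length_pos_iff.2 hG⟩⟩
  -- decodable pairs
  let Q : (Win n N → Fin G.length) → WA n N L × WA n N L → Prop := fun p w =>
    Dj w.1.1 w.2.1 ∧ en A (eo G p) w.1.1 w.1.2 ≤ Em ∧
      ∃ θ, τ / 2 ≤ sig A (eo G p) w.1.1 w.1.2 θ ∧ τ / 2 ≤ sig A (eo G p) w.2.1 w.2.2 θ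
  let R : (Win n N → Fin G.length) → WA n N L → Prop := fun p w =>
    Em < L * Real.sqrt n * bet A (eo G p) w.1 w.2
  have h1 : ∀ p : Win n N → Fin G.length, Bad (L := L) τ t A (eo G p) →
      t ^ 2 / 2 ≤ Pr (Q p) + Pr (R p) := by
    rintro p ⟨θ, hθ⟩
    have h2 : t ^ 2 ≤ Pr fun w : WA n N L × WA n N L =>
        psi τ A (eo G p) w.1.1 w.1.2 θ ≠ 0 ∧ psi τ A (eo G p) w.2.1 w.2.2 θ ≠ 0 := by
      rw [Pr_indep (fun w : WA n N L => psi τ A (eo G p) w.1 w.2 θ ≠ 0)
        (fun w : WA n N L => psi τ A (eo G p) w.1 w.2 θ ≠ 0), sq]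
      exact mul_le_mul hθ hθ ht.le (ht.le.trans hθ)
    have h3 : (Pr fun w : WA n N L × WA n N L =>
        psi τ A (eo G p) w.1.1 w.1.2 θ ≠ 0 ∧ psi τ A (eo G p) w.2.1 w.2.2 θ ≠ 0) ≤
        (Pr fun w : WA n N L × WA n N L => ¬ Dj w.1.1 w.2.1) + (Pr (Q p) + Pr (R p)) := by
      have h4 : Pr (R p) = Pr fun w : WA n N L × WA n N L => R p w.1 := by
        unfold Pr
        exact (Ex_fst fun w : WA n N L => if R p w then (1 : ℝ) else 0).symm
      rw [h4]
      refine le_trans (Pr_mono fun w hw => ?_)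
        ((Pr_or_le _ _).trans (add_le_add le_rfl (Pr_or_le _ _)))
      by_cases h5 : Dj w.1.1 w.2.1
      · by_cases h6 : R p w.1
        · exact Or.inr (Or.inr h6)
        · refine Or.inr (Or.inl ⟨h5, ?_, θ, (sig_of_psi A _ _ _ _ hτ hw.1).le,
            (sig_of_psi A _ _ _ _ hτ hw.2).le⟩)
          exact ((hWin n N r L A (eo G p) w.1.1 w.1.2).1).trans (not_lt.1 h6)
      · exact Or.inl h5
    have h7 := pr_not_Dj (n := n) (N := N) (L := L)
    linarith
  have h8 : Pr (fun p : Win n N → Fin G.length => Bad (L := L) τ t A (eo G p)) * (t ^ 2 / 2) ≤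
      Ex fun p => Pr (Q p) + Pr (R p) := by
    rw [Pr, ← Ex_mul_const]
    refine Ex_mono fun p => ?_
    split_ifs with h
    · rw [one_mul]; exact h1 p h
    · rw [zero_mul]; exact add_nonneg (Pr_nonneg _) (Pr_nonneg _)
  refine h8.trans ?_
  rw [Ex_add]
  refine add_le_add ?_ ?_
  · -- decoding
    have h9 : (Ex fun p => Pr (Q p)) = Ex fun w : WA n N L × WA n N L => Pr fun p => Q p w := by
      unfold Pr
      exact Ex_comm _
    rw [h9]
    refine (Ex_mono (g := fun _ => (J : ℝ) ^ 2 * η) fun w => ?_).trans (Ex_const _).le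
    by_cases h10 : Dj w.1.1 w.2.1
    · refine le_trans (Pr_mono fun p hp => hp.2)
        (hDec n N r L Em τ τ' η J hτ hτ' hS hJ hJ2 G hG hη A w.1.1 w.2.1 h10 w.1.2 w.2.2)
    · have h11 : (Pr fun p => Q p w) ≤ Pr fun _ : Win n N → Fin G.length => False :=
        Pr_mono fun p hp => h10 hp.1
      refine h11.trans ?_
      have h12 : (Pr fun _ : Win n N → Fin G.length => False) = 0 := by
        simp [Pr, Ex]
      rw [h12]
      positivity
  · have h13 : (Ex fun z : ZZ G n N L => L * Real.sqrt n * bet A (eo G z.1) z.2.1 z.2.2) / Em =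
        Ex fun p : Win n N → Fin G.length =>
          (Ex fun w : WA n N L => L * Real.sqrt n * bet A (eo G p) w.1 w.2) / Em := by
      rw [Ex_prod, div_eq_mul_inv, ← Ex_mul_const]
      rfl
    rw [h13]
    refine Ex_mono fun p => Pr_le_of_Ex (fun w => ?_) hEm
    exact mul_nonneg (by positivity) (hB0 (p, w))

end

end Vale.Agent.P325.K2
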