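import Vale.Agent.P325.H111.K2.Step

/-!
# The pruning step of the soundness proof
-/

namespace Vale.Agent.P325.K2

open Finset Vale.Agent.Lib.PCP Vale.Agent.P342

section

variable {n N r L : ℕ} [NeZero n] [NeZero N] [NeZero r] [NeZero L]

variable {τ : ℝ} (A : Asg n N r) (e : Win n N → Ed r)

omit [NeZero N] [NeZero r] in
theorem c3_nonneg (c : Win n N) (a : Fin n → Fin L) (k : Fin n) (j : Fin N) :
    0 ≤ c3 A e c a k j := by
  unfold c3
  split_ifs
  · exact Pr_nonneg _
  · exact le_rfl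

omit [NeZero r] in
/-- The change of the leg. -/
theorem leg_le (hL : LipThm) (hM : MonoThm) (hSum : SumThm) (hτ : 0 < τ)
    (c : Win n N) (a : Fin n → Fin L) (k : Fin n) :
    (if (a k : ℕ) = 0 then (∑ j, ∑ θ, max 0 (psi τ A e c a θ -
      psi τ A e (Function.update c k j) a θ)) / (N : ℝ) else 0) ≤
      16 / τ * (2 / τ) / N * ∑ j, c3 A e c a k j + if a = 0 then 2 / τ else 0 := by
  have hN : (0 : ℝ) < N := by
    exact_mod_cast Nat.pos_of_ne_zero (NeZero.ne N)
  have hs : 0 ≤ ∑ j, c3 A e c a k j := sum_nonneg fun j _ => c3_nonneg A e c a k j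
  by_cases h : (a k : ℕ) = 0
  · rw [if_pos h]
    have h0 : a k = 0 := Fin.ext (by simpa using h)
    by_cases ha : a = 0
    · rw [if_pos ha]
      have h1 : (∑ j, ∑ θ, max 0 (psi τ A e c a θ - psi τ A e (Function.update c k j) a θ)) /
          (N : ℝ) ≤ 2 / τ := by
        rw [div_le_iff₀ hN]
        refine (sum_le_sum fun j _ => sum_max_psi_le' A e c _ a a hM hSum hτ).trans ?_
        rw [sum_const, card_univ, Fintype.card_fin, nsmul_eq_mul, mul_comm]
      have h2 : 0 ≤ 16 / τ * (2 / τ) / N * ∑ j, c3 A e c a k j := by positivity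
      linarith
    · rw [if_neg ha, add_zero, mul_sum, sum_div]
      refine sum_le_sum fun j _ => ?_
      have h1 := sum_max_psi_le A e c (Function.update c k j) a a hL hM hSum hτ
      have h2 : c3 A e c a k j = Pr fun y : Sd n N r L =>
          Fz A e c a y ≠ Fz A e (Function.update c k j) a y := by
        unfold c3
        rw [if_pos ⟨h0, ha⟩]
      rw [h2, div_le_iff₀ hN]
      refine h1.trans (le_of_eq ?_)
      field_simp
  · rw [if_neg h]
    have : (0 : ℝ) ≤ if a = 0 then 2 / τ else 0 := by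
      split_ifs
      · positivity
      · exact le_rfl
    positivity

omit [NeZero n] [NeZero N] [NeZero L] in
theorem card_WA : (Fintype.card (WA n N L) : ℝ) = (N : ℝ) ^ n * (L : ℝ) ^ n := by
  rw [Fintype.card_prod, Fintype.card_fun, Fintype.card_fun]
  simp

/-- The pruning lemma for a good tuple. -/
theorem stepC (hP : PruneThm) (hL : LipThm) (hM : MonoThm) (hSum : SumThm) (hWin : WinThm)
    (hτ : 0 < τ) {t : ℝ} (ht : t * (4 * n) ^ (2 * n) ≤ 1) (hn : 0 < n)
    (hB0 : ∀ (c : Win n N) (a : Fin n → Fin L), 0 ≤ bet A e c a)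
    (hg : ¬ Bad (L := L) τ t A e) :
    (Ex fun w : WA n N L => ∑ θ, psi τ A e w.1 w.2 θ) ≤
      3 * L * (16 / τ * (2 / τ) * Ex fun w : WA n N L => bet A e w.1 w.2) +
      2 * L * ((16 / τ * (2 / τ) / N * Ex fun w : WA n N L => ∑ k, ∑ j, c3 A e w.1 w.2 k j) +
        n * (2 / τ) * Pr fun a : Fin n → Fin L => a = 0) := by
  classical
  have hN : 0 < N := Nat.pos_of_ne_zero (NeZero.ne N)
  have hL0 : 0 < L := Nat.pos_of_ne_zero (NeZero.ne L)
  have hcard : (0 : ℝ) < Fintype.card (WA n N L) := by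
    rw [card_WA]
    positivity
  -- the pruning lemma for each group
  have h1 : ∀ θ, ∑ c, ∑ a : Fin n → Fin L, psi τ A e c a θ ≤
      3 * L * ∑ c, ∑ a : Fin n → Fin L,
        (16 / τ * bet A e c a * if psi τ A e c a θ ≠ 0 then (1 : ℝ) else 0) +
      2 * (L * ∑ k, ∑ c, ∑ a : Fin n → Fin L, if (a k : ℕ) = 0 then
        (∑ j, max 0 (psi τ A e c a θ - psi τ A e (Function.update c k j) a θ)) / N else 0) := by
    intro θ
    refine hP n N L hn hN hL0 (fun c a => psi τ A e c a θ) _
      (fun c a => psi_nonneg A e c a θ) (fun c a => ?_) (fun c a a' h => ?_) ?_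
    · refine mul_nonneg (mul_nonneg (by positivity) (hB0 c a)) ?_
      split_ifs <;> norm_num
    · have h2 := max_psi_le A e c c a a' θ hL hτ
      have h3 := (hWin n N r L A e c a).2 a' h
      have h4 : (16 / τ * Pr fun y : Sd n N r L => Fz A e c a y ≠ Fz A e c a' y) ≤
          16 / τ * bet A e c a := mul_le_mul_of_nonneg_left h3 (by positivity)
      have h5 : psi τ A e c a θ - psi τ A e c a' θ ≤
          16 / τ * bet A e c a * if psi τ A e c a θ ≠ 0 then (1 : ℝ) else 0 := by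
        refine (le_max_right 0 _).trans (h2.trans (mul_le_mul_of_nonneg_right h4 ?_))
        split_ifs <;> norm_num
      linarith
    · unfold Bad at hg
      push Not at hg
      have h2 := hg θ
      rw [Pr_eq_card, div_lt_iff₀ hcard, card_WA] at h2
      have hpow : (0 : ℝ) < (4 * n) ^ (2 * n) := by positivity
      have h3 := mul_lt_mul_of_pos_right h2 hpow
      refine lt_of_eq_of_lt (by congr!) (lt_of_lt_of_le h3 ?_)
      calc t * ((N : ℝ) ^ n * (L : ℝ) ^ n) * (4 * n) ^ (2 * n)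
          = t * (4 * n) ^ (2 * n) * ((N : ℝ) ^ n * (L : ℝ) ^ n) := by ring
        _ ≤ 1 * ((N : ℝ) ^ n * (L : ℝ) ^ n) := mul_le_mul_of_nonneg_right ht (by positivity)
        _ = _ := one_mul _
  -- sum over the groups
  have h2 : ∑ c, ∑ a : Fin n → Fin L, ∑ θ, psi τ A e c a θ ≤
      3 * L * ∑ c, ∑ a : Fin n → Fin L, (16 / τ * (2 / τ) * bet A e c a) +
      2 * (L * ∑ k, ∑ c, ∑ a : Fin n → Fin L, if (a k : ℕ) = 0 then
        (∑ j, ∑ θ, max 0 (psi τ A e c a θ - psi τ A e (Function.update c k j) a θ)) / (N : ℝ)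
          else 0) := by
    have h3 := sum_le_sum fun θ (_ : θ ∈ (univ : Finset (Lab n N r))) => h1 θ
    rw [sum_add_distrib, ← mul_sum, ← mul_sum, ← mul_sum] at h3
    have e1 : ∑ θ, ∑ c, ∑ a : Fin n → Fin L, psi τ A e c a θ =
        ∑ c, ∑ a : Fin n → Fin L, ∑ θ, psi τ A e c a θ := by
      rw [sum_comm]
      exact sum_congr rfl fun c _ => sum_comm
    have e2 : ∑ θ, ∑ c, ∑ a : Fin n → Fin L,
        (16 / τ * bet A e c a * if psi τ A e c a θ ≠ 0 then (1 : ℝ) else 0) ≤
        ∑ c, ∑ a : Fin n → Fin L, (16 / τ * (2 / τ) * bet A e c a) := by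
      rw [sum_comm]
      refine sum_le_sum fun c _ => ?_
      rw [sum_comm]
      refine sum_le_sum fun a _ => ?_
      rw [← mul_sum]
      calc 16 / τ * bet A e c a * ∑ θ, (if psi τ A e c a θ ≠ 0 then (1 : ℝ) else 0)
          ≤ 16 / τ * bet A e c a * (2 / τ) :=
            mul_le_mul_of_nonneg_left (sum_ind_le A e c a hM hSum hτ)
              (mul_nonneg (by positivity) (hB0 c a))
        _ = _ := by ring
    have e3 : ∑ θ, ∑ k, ∑ c, ∑ a : Fin n → Fin L, (if (a k : ℕ) = 0 then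
        (∑ j, max 0 (psi τ A e c a θ - psi τ A e (Function.update c k j) a θ)) / (N : ℝ) else 0) =
        ∑ k, ∑ c, ∑ a : Fin n → Fin L, if (a k : ℕ) = 0 then
        (∑ j, ∑ θ, max 0 (psi τ A e c a θ - psi τ A e (Function.update c k j) a θ)) / (N : ℝ)
          else 0 := by
      rw [sum_comm]
      refine sum_congr rfl fun k _ => ?_
      rw [sum_comm]
      refine sum_congr rfl fun c _ => ?_
      rw [sum_comm]
      refine sum_congr rfl fun a _ => ?_
      by_cases h : (a k : ℕ) = 0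
      · simp only [if_pos h]
        rw [← sum_div, sum_comm]
      · simp only [if_neg h, sum_const_zero]
    rw [e1, e3] at h3
    refine h3.trans (add_le_add (mul_le_mul_of_nonneg_left e2 (by positivity)) le_rfl)
  -- change of the leg
  have h4 : ∑ k, ∑ c, ∑ a : Fin n → Fin L, (if (a k : ℕ) = 0 then
        (∑ j, ∑ θ, max 0 (psi τ A e c a θ - psi τ A e (Function.update c k j) a θ)) / (N : ℝ)
          else 0) ≤
      ∑ k, ∑ c, ∑ a : Fin n → Fin L, (16 / τ * (2 / τ) / N * ∑ j, c3 A e c a k j +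
        if a = 0 then 2 / τ else 0) :=
    sum_le_sum fun k _ => sum_le_sum fun c _ => sum_le_sum fun a _ =>
      leg_le A e hL hM hSum hτ c a k
  have h5 := h2.trans (add_le_add le_rfl (mul_le_mul_of_nonneg_left
    (mul_le_mul_of_nonneg_left h4 (Nat.cast_nonneg L)) zero_le_two))
  -- averages
  have h6 := div_le_div_of_nonneg_right h5 hcard.le
  have e1 : (∑ c, ∑ a : Fin n → Fin L, ∑ θ, psi τ A e c a θ) / (Fintype.card (WA n N L) : ℝ) =
      Ex fun w : WA n N L => ∑ θ, psi τ A e w.1 w.2 θ := by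
    rw [Ex, Fintype.sum_prod_type]
  rw [e1] at h6
  refine h6.trans (le_of_eq ?_)
  have e2 : (∑ c, ∑ a : Fin n → Fin L, (16 / τ * (2 / τ) * bet A e c a)) /
      (Fintype.card (WA n N L) : ℝ) = 16 / τ * (2 / τ) * Ex fun w : WA n N L => bet A e w.1 w.2 := by
    rw [← Ex_const_mul, Ex, Fintype.sum_prod_type]
  have e3 : (∑ k, ∑ c, ∑ a : Fin n → Fin L, (16 / τ * (2 / τ) / N * ∑ j, c3 A e c a k j +
        if a = 0 then 2 / τ else 0)) / (Fintype.card (WA n N L) : ℝ) =
      (16 / τ * (2 / τ) / N * Ex fun w : WA n N L => ∑ k, ∑ j, c3 A e w.1 w.2 k j) +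
        n * (2 / τ) * Pr fun a : Fin n → Fin L => a = 0 := by
    have f1 : ∀ k : Fin n, (∑ c, ∑ a : Fin n → Fin L, (16 / τ * (2 / τ) / N *
        ∑ j, c3 A e c a k j + if a = 0 then 2 / τ else 0)) / (Fintype.card (WA n N L) : ℝ) =
        (16 / τ * (2 / τ) / N * Ex fun w : WA n N L => ∑ j, c3 A e w.1 w.2 k j) +
          (2 / τ) * Pr fun a : Fin n → Fin L => a = 0 := by
      intro k
      have f2 : (∑ c, ∑ a : Fin n → Fin L, (16 / τ * (2 / τ) / N *
        ∑ j, c3 A e c a k j + if a = 0 then 2 / τ else 0)) / (Fintype.card (WA n N L) : ℝ) =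
        Ex fun w : WA n N L => (16 / τ * (2 / τ) / N * ∑ j, c3 A e w.1 w.2 k j +
          if w.2 = 0 then 2 / τ else 0) := by
        rw [Ex, Fintype.sum_prod_type]
      rw [f2, Ex_add, Ex_const_mul]
      congr 1
      rw [Ex_snd fun a : Fin n → Fin L => if a = 0 then 2 / τ else 0, Pr, ← Ex_const_mul]
      refine Ex_congr fun a => ?_
      by_cases h : a = 0 <;> simp [h]
    rw [sum_div, sum_congr rfl fun k _ => f1 k, sum_add_distrib, ← mul_sum, ← Ex_sum,
      sum_const, card_univ, Fintype.card_fin, nsmul_eq_mul]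
    ring
  rw [add_div, mul_div_assoc, e2, mul_div_assoc, mul_div_assoc, e3]
  ring

end

end Vale.Agent.P325.K2
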