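import Vale.Agent.P325.H111.K2.Defs
import Vale.Agent.P325.Stmt
import Vale.Agent.P333.NPDefs

/-!
# The statements of the packages
-/

namespace Vale.Agent.P325.K2

open Finset Vale.Agent.Lib.PCP Vale.Agent.P342

/-! ### The structure theorem with fixed constants -/

open Classical in
/-- The conclusion of the structure theorem for the constants `E`, `ε`, `τ`. -/
def StructAt (E ε τ : ℝ) : Prop :=
  ∀ (ι G : Type) [Fintype ι] [DecidableEq ι] [Fintype G] [DecidableEq G] (grp : ι → G)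
    (f : (ι → Bool) → ℝ), IsSign f → energy grp f ≤ E →
    ∀ H : Finset G, (∀ g ∈ H, sInf f {i | grp i = g} < τ) → Inf f {i | grp i ∈ H} ≤ ε

/-! ### Package F: parts of the structure theorem -/

/-- Package F1a: the high degree part is controlled by the expected size of the gradient. -/
def TailThm : Prop :=
  ∃ C : ℝ, ∀ (ι : Type) [Fintype ι] [DecidableEq ι] (f : (ι → Bool) → ℝ), IsSign f → ∀ k : ℕ, 1 ≤ k →
    (∑ S : Finset ι, if k < #S then fc f S ^ 2 else 0) ≤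
      C * (Ex fun x => Real.sqrt #(piv f x)) / Real.sqrt k

open Classical in
/-- Package F1b: the low degree part is controlled by the energy and the smoothed influences. -/
def LowThm : Prop :=
  ∃ C : ℝ, 0 ≤ C ∧ ∀ (ι G : Type) [Fintype ι] [DecidableEq ι] [Fintype G] [DecidableEq G]
    (grp : ι → G) (f : (ι → Bool) → ℝ), IsSign f → ∀ (k : ℕ) (τ : ℝ), 0 ≤ τ →
    ∀ H : Finset G, (∀ g ∈ H, sInf f {i | grp i = g} ≤ τ) →
      (∑ S : Finset ι, if #S ≤ k then (#{i ∈ S | grp i ∈ H} : ℝ) * fc f S ^ 2 else 0) ≤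
        C * 12 ^ k * energy grp f * Real.sqrt τ

/-- Package F1c: vector valued Bonami lemma for the noise operator with parameter `1 / sqrt 3`
(coordinates `j` of the vector). -/
def BonamiThm : Prop :=
  ∀ (ι J : Type) [Fintype ι] [DecidableEq ι] [Fintype J] (F : J → (ι → Bool) → ℝ),
    (Ex fun x => (∑ j, (∑ S : Finset ι, (1 / Real.sqrt 3) ^ #S * fc (F j) S * chi S x) ^ 2) ^ 2) ≤
      (Ex fun x => ∑ j, F j x ^ 2) ^ 2

/-! ### Package T: the pruning lemma -/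

open Classical in
/-- Package T1: a small subset of `Fin M ^ n` can be given directions such that each line has few
points of its direction. -/
def DirThm : Prop :=
  ∀ (n M : ℕ) (B : Finset (Fin n → Fin M)), 0 < n →
    (#B : ℝ) * (4 * n) ^ n < (M : ℝ) ^ n →
    ∃ dir : (Fin n → Fin M) → Fin n, ∀ (k : Fin n) (x : Fin n → Fin M),
      (#{v : Fin M | Function.update x k v ∈ B ∧ dir (Function.update x k v) = k} : ℝ) * (4 * n) ≤ M

open Classical in
/-- Package T2: functions with small support have a large boundary. -/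
def PruneThm : Prop :=
  ∀ (n N L : ℕ), 0 < n → 0 < N → 0 < L →
    ∀ ψ D : (Fin n → Fin N) → (Fin n → Fin L) → ℝ, (∀ c a, 0 ≤ ψ c a) → (∀ c a, 0 ≤ D c a) →
    (∀ c a a', Adj1 a a' → ψ c a ≤ ψ c a' + D c a) →
    (#{z : (Fin n → Fin N) × (Fin n → Fin L) | ψ z.1 z.2 ≠ 0} : ℝ) * (4 * n) ^ (2 * n) <
      (N : ℝ) ^ n * (L : ℝ) ^ n →
    ∑ c, ∑ a, ψ c a ≤ 3 * L * ∑ c, ∑ a, D c a + 2 * (L * ∑ k, ∑ c, ∑ a,
      if (a k : ℕ) = 0 then (∑ j, max 0 (ψ c a - ψ (Function.update c k j) a)) / N else 0)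

/-! ### Package A: anticoncentration -/

/-- Package A1: the values of strings are spread out. -/
def BallThm : Prop :=
  ∃ C : ℝ, 0 < C ∧ ∀ L : ℕ, 2 ≤ L → Even L → ∀ v : ℤ,
    Pr (fun y : Fin (L * L) → Bool => xv L y = v) ≤ C / L

/-- Package A0: the inequality of Erdős on the problem of Littlewood and Offord. -/
def LOThm : Prop :=
  ∀ (K : Type) [Fintype K] [DecidableEq K] (v : K → ℤ) (w s : ℤ), 0 < w → (∀ k, w ≤ |v k|) →
    (Pr fun b : K → Bool => s ≤ ∑ k, (if b k then v k else 0) ∧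
      ∑ k, (if b k then v k else 0) < s + w) ≤ 1 / Real.sqrt (Fintype.card K + 1)

/-- Package A2: two slots suffice for an anticoncentration of order `1 / L`. -/
def TwoThm : Prop :=
  ∃ C : ℝ, 0 < C ∧ ∀ L : ℕ, 2 ≤ L → Even L → ∀ s : ℤ,
    Pr (fun p : (Fin L × Fin L) × (Fin (L * L) → Bool) × (Fin (L * L) → Bool) =>
      |s + (p.1.1 : ℤ) * xv L p.2.1 + (p.1.2 : ℤ) * xv L p.2.2| ≤ 2 * L) ≤ C / L

/-- Package A3: the anticoncentration of the weighted sum. -/
def ACThm : Prop :=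
  ∃ C0 : ℝ, 0 < C0 ∧ ∀ n L : ℕ, 3 ≤ n → 2 ≤ L → Even L → nu n L ≤ C0 / (L * Real.sqrt n)

/-- Package A4: two different addresses. -/
def PairThm : Prop :=
  ∀ n : ℕ, 3 ≤ n → ∀ ε : ℝ, 0 < ε → ∃ L0 : ℕ, ∀ L, L0 ≤ L → Even L →
    ∀ (K : Type) [Fintype K] [DecidableEq K] (κ κ' : Fin n → K), κ ≠ κ' →
    Pr (fun p : (Fin n → Fin L) × (Bt n L K → Bool) => near p.1 p.2 κ ∧ near p.1 p.2 κ') ≤ ε / L

/-- Package A5: pairs for windows. -/
def PairAvg : Prop :=
  ∀ n N r : ℕ, 3 ≤ n → ∀ ε : ℝ, 0 < ε → ∃ L0 : ℕ, ∀ L, L0 ≤ L → Even L →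
    ∀ (π : Win n N → Fin r → Fin r) (c : Win n N),
      Ex (fun a : Fin n → Fin L => pairs n L (adr π c) a) ≤ ε / L

/-- Package A6. -/
def NuPos : Prop := ∀ n L : ℕ, 0 < L → 0 < nu n L

/-! ### Package E: energy and displacement -/

/-- Package E1: the energy. -/
def EnergyThm : Prop :=
  ∀ (n L : ℕ) [NeZero n] [NeZero L] (K V G : Type) [Fintype K] [DecidableEq K] [Fintype V]
    [DecidableEq V] [Fintype G] (Φ : (V → Bool) → Bool) (adr : V → Fin n → K)
    (grp : Bt n L K → G) (gv : V → G), (∀ ν k i, grp (k, adr ν k, i) = gv ν) →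
    ∀ a : Fin n → Fin L,
      energy grp (FF Φ adr a) ≤ L * Real.sqrt n * (cost1 Φ adr a + pairs n L adr a)

/-- Package E2: the displacement. -/
def DispThm : Prop :=
  ∀ (n L : ℕ) [NeZero n] [NeZero L] (K V : Type) [Fintype K] [DecidableEq K] [Fintype V]
    [DecidableEq V] (Φ : (V → Bool) → Bool) (adr : V → Fin n → K) (a a' : Fin n → Fin L),
    Adj1 a a' → Pr (fun y : Bt n L K → Bool => FF Φ adr a y ≠ FF Φ adr a' y) ≤
      cost1 Φ adr a + pairs n L adr a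

/-- Package E3: oddness. -/
def OddFF : Prop :=
  ∀ (n L : ℕ) [NeZero n] [NeZero L] (K V : Type) (Φ : (V → Bool) → Bool)
    (adr : V → Fin n → K) (a : Fin n → Fin L), (∀ φ, Φ (fun ν => !φ ν) = !Φ φ) →
    ∀ y : Bt n L K → Bool, FF Φ adr a (fun i => !y i) = - FF Φ adr a y

/-! ### Package W: windows -/

/-- Package W1: the energy and the displacement of an assignment. -/
def WinThm : Prop :=
  ∀ (n N r L : ℕ) [NeZero n] [NeZero N] [NeZero r] [NeZero L] (A : Asg n N r)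
    (e : Win n N → Ed r) (c : Win n N) (a : Fin n → Fin L),
    en A e c a ≤ L * Real.sqrt n * bet A e c a ∧
    ∀ a', Adj1 a a' → Pr (fun y : Sd n N r L => Fz A e c a y ≠ Fz A e c a' y) ≤ bet A e c a

/-- Package W2: small energy gives a significant coarse group. -/
def SigThm : Prop :=
  ∀ (n N r L : ℕ) [NeZero n] [NeZero N] [NeZero r] [NeZero L] (E τ : ℝ), StructAt E (1 / 2) τ →
    ∀ (A : Asg n N r), Odd' A → ∀ (e : Win n N → Ed r) (c : Win n N) (a : Fin n → Fin L),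
      en A e c a ≤ E → ∃ θ, τ ≤ sig A e c a θ

/-- Package W3: decoding. -/
def DecodeThm : Prop :=
  ∀ (n N r L : ℕ) [NeZero n] [NeZero N] [NeZero r] [NeZero L] (E τ τ' η : ℝ) (J : ℕ),
    0 < τ → 0 < τ' → StructAt E (τ / 4) τ' → 1 / τ' ≤ J → 2 / τ ≤ J →
    ∀ (G : PG ℕ ℕ (Fin r) (Fin r)), G ≠ [] → G.Sound η →
    ∀ (A : Asg n N r) (c c' : Win n N), Dj c c' → ∀ a a' : Fin n → Fin L,
      Pr (fun p : Win n N → Fin G.length => en A (eo G p) c a ≤ E ∧
        ∃ θ, τ / 2 ≤ sig A (eo G p) c a θ ∧ τ / 2 ≤ sig A (eo G p) c' a' θ) ≤ (J : ℝ) ^ 2 * η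

/-! ### Package S: soundness and completeness -/

/-- Package S1: soundness. -/
def SoundThm : Prop :=
  ∀ C : ℝ, ∃ (n N : ℕ) (_ : NeZero n) (_ : NeZero N) (η : ℝ), 0 < η ∧
    ∀ (r : ℕ) [NeZero r], ∃ (L W : ℕ) (_ : NeZero L), 
    ∀ (G : PG ℕ ℕ (Fin r) (Fin r)), G ≠ [] → G.Sound η →
    ∀ A : Asg n N r, Odd' A → C * nu n L < cost L W G A

/-- Package S2: completeness. -/
def CompleteThm : Prop :=
  ∀ (n N r L W : ℕ) [NeZero n] [NeZero N] [NeZero r] [NeZero L] (G : PG ℕ ℕ (Fin r) (Fin r)),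
    G ≠ [] → G.Perfect → ∃ A : Asg n N r, Odd' A ∧ cost L W G A = nu n L

/-! ### Package R: the reduction -/

/-- The gap problem (value at least `c` against value at most `s`) of Unique Games over the alphabet
`Fin K` is NP-hard. -/
def UGHardK (K : ℕ) (c s : ℝ) : Prop :=
  ∀ L ∈ Vale.Agent.P333.classNP, ∃ f : List Bool → Vale.Agent.P325.Inst K,
    Nonempty (Turing.TM2ComputableInPolyTime (fun x : List Bool => x)
      (Vale.Agent.P325.Inst.code : Vale.Agent.P325.Inst K → List Bool) f) ∧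
    (∃ A b : ℕ, ∀ x, (f x).size ≤ A * (x.length + 1) ^ b) ∧
    (∀ x ∈ L, c ≤ (f x).val) ∧ ∀ x ∉ L, (f x).val ≤ s

/-- The result. -/
def FinalThm : Prop :=
  ∀ C : ℝ, ∃ ε₀ : ℝ, 0 < ε₀ ∧ ∀ ε : ℝ, 0 < ε → ε ≤ ε₀ → UGHardK 2 (1 - ε) (1 - C * ε)

/-- Package R: the reduction. -/
def RedThm : Prop := SoundThm → CompleteThm → NuPos → FinalThm

end Vale.Agent.P325.K2
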